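import Vale.Agent.P284.H608.K.Eng
import Vale.Agent.P284.H383.K9.Ex2
import Vale.Agent.P284.H501.K.T5
import Vale.Agent.P284.H553.K8.EngF
import Vale.Agent.P284.H213.N.Fin
import Vale.Agent.P284.H213.N.One
import Vale.Agent.P284.H837.N.Core

/-!
# P284 (helper608): amenable quotients of the fundamental group of a special compact Kähler manifold

The assembly of the programs K (compact Kähler manifolds) and N (`Special` instead of `FSp`).
-/

open scoped Manifold ContDiff Topology

noncomputable section

namespace Vale.Agent.P284.H608.SA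

open Vale.Agent.P272.K Vale.Agent.P284.H213.K Vale.Agent.P284.H213.N Vale.Agent.P284.H837.N

/-- **ExK** -/
theorem exK : ExK := Vale.Agent.P284.H383.K9.exK Vale.Agent.P284.H608.K.eng

/-- **MF** for the class `noVC` -/
theorem mfN : MFN noVC := mfN_noV exK Vale.Agent.P284.H501.K.t5K

/-- **T1'** for special compact Kähler manifolds -/
theorem t1 : MainPiK spC PQ :=
  mainPiK_sp Vale.Agent.P284.H553.K8.spKN (mainQN mfN coreTN)

/-- **T3** for special compact Kähler manifolds -/
theorem t3 : MainPiK spC PN :=
  mainPiK_sp Vale.Agent.P284.H553.K8.spKN (mainNN mfN coreTN)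

end Vale.Agent.P284.H608.SA
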